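import Vale.Agent.Lib.P072.Final

/-!
# P072: the permanence conjecture for weakly reversible mass-action systems
-/

namespace Vale.Agent.Results.P072.Permanence

open Vale.Agent.P072

/-- Every weakly reversible mass-action system with positive rate constants is permanent on every
positive stoichiometric class. -/
theorem result : ∀ (d : ℕ) (N : Network d), N.WeaklyReversible →
    ∀ k : Cx d × Cx d → ℝ, (∀ r ∈ N.reactions, 0 < k r) →
      ∀ c : Fin d → ℝ, (∀ i, 0 < c i) → N.Permanent k c :=
  fun _ N hN k hk c hc => permanent N hN k hk c hc

end Vale.Agent.Results.P072.Permanence
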