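import Vale.Agent.Lib.P072.Draw.Inlined

/-!
# P072: the permanence conjecture, both forms, stated without own definitions
-/

namespace Vale.Agent.Results.P072.PermanenceExplicit

open Filter Set

/-- Complexes `C`, reactions `R` (`(y, y')` is `y → y'`), weakly reversible; `S` is the
stoichiometric subspace, `P` the positive stoichiometric class of `c`, `f k` the mass-action vector
field with rate constants `k`. First part: constant positive rates (Q1). Second part: measurable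
time-dependent rates with values in `[ε, ε⁻¹]` (the stronger form), solutions in the sense of
Caratheodory, with one compact set `K` for all such rates. -/
theorem result (d : ℕ) (C : Finset (Fin d → ℕ)) (R : Finset ((Fin d → ℕ) × (Fin d → ℕ)))
    (hR : ∀ y y', (y, y') ∈ R → y ∈ C ∧ y' ∈ C ∧ y ≠ y')
    (hrev : ∀ y y', (y, y') ∈ R → Relation.ReflTransGen (fun a b => (a, b) ∈ R) y' y)
    (c : Fin d → ℝ) (hc : ∀ i, 0 < c i) :
    let S : Submodule ℝ (Fin d → ℝ) :=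
      Submodule.span ℝ {v | ∃ y y', (y, y') ∈ R ∧ v = fun i => (y' i : ℝ) - (y i : ℝ)}
    let P : Set (Fin d → ℝ) := {x | (∀ i, 0 < x i) ∧ x - c ∈ S}
    let f : ((Fin d → ℕ) → (Fin d → ℕ) → ℝ) → (Fin d → ℝ) → Fin d → ℝ := fun k x i =>
      ∑ r ∈ R, k r.1 r.2 * (∏ j, x j ^ r.1 j) * ((r.2 i : ℝ) - (r.1 i : ℝ))
    (∀ k : (Fin d → ℕ) → (Fin d → ℕ) → ℝ, (∀ y y', (y, y') ∈ R → 0 < k y y') →
      ∃ K ⊆ P, IsCompact K ∧ ∀ x₀ ∈ P, ∃ x : ℝ → Fin d → ℝ, x 0 = x₀ ∧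
        (∀ t ≥ 0, HasDerivWithinAt x (f k (x t)) (Ici 0) t) ∧
        (∀ t ≥ 0, x t ∈ P) ∧ (∀ᶠ t in atTop, x t ∈ K) ∧
        ∀ (T : ℝ) (z : ℝ → Fin d → ℝ), z 0 = x₀ →
          (∀ t ∈ Ico 0 T, HasDerivWithinAt z (f k (z t)) (Ico 0 T) t) →
          ∀ t ∈ Ico 0 T, z t = x t) ∧
    (∀ ε > 0, ∃ K ⊆ P, IsCompact K ∧ ∀ k : ℝ → (Fin d → ℕ) → (Fin d → ℕ) → ℝ,
      (∀ y y', (y, y') ∈ R →
        Measurable (fun t => k t y y') ∧ ∀ t ≥ 0, ε ≤ k t y y' ∧ k t y y' ≤ ε⁻¹) →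
      ∀ x₀ ∈ P, ∃ x : ℝ → Fin d → ℝ, ContinuousOn x (Ici 0) ∧
        (∀ t ≥ 0, x t = x₀ + ∫ s in (0 : ℝ)..t, f (k s) (x s)) ∧
        (∀ t ≥ 0, x t ∈ P) ∧ (∀ᶠ t in atTop, x t ∈ K) ∧
        ∀ (T : ℝ) (z : ℝ → Fin d → ℝ), ContinuousOn z (Ico 0 T) →
          (∀ t ∈ Ico 0 T, z t = x₀ + ∫ s in (0 : ℝ)..t, f (k s) (z s)) →
          ∀ t ∈ Ico 0 T, z t = x t) :=
  Vale.Agent.P072.inlined d C R hR hrev c hc

end Vale.Agent.Results.P072.PermanenceExplicit
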