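import Vale.Agent.Lib.P072.V.VFinal

/-!
# P072: permanence for measurable time-dependent rates
-/

namespace Vale.Agent.Results.P072.PermanenceVariableRates

open Vale.Agent.P072

/-- Every weakly reversible mass-action system with measurable time-dependent rates with values in
`[ε, ε⁻¹]` is permanent on every positive stoichiometric class, with one compact attracting set
for all such rates. -/
theorem result : ∀ (d : ℕ) (N : Network d), N.WeaklyReversible → ∀ ε : ℝ, 0 < ε →
    ∀ c : Fin d → ℝ, (∀ i, 0 < c i) → N.PermanentV ε c :=
  fun _ N hN ε hε c hc => permanentV N hN ε hε c hc

end Vale.Agent.Results.P072.PermanenceVariableRates
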